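import Mathlib
import Vale.Agent.Lib.P227.Defs
import Vale.Agent.Lib.P227.Segment

/-!
# Sections of bodies in `R^(n+1) = R x R^n` and the logarithmic combination

Geometric part of the hyperplane-symmetry reduction for the logarithmic Brunn-Minkowski
inequality: slicing of the volume, sections of a symmetric convex body that is invariant
under the reflection of the first coordinate, and the inclusion of the logarithmic
combination of two sections in a section of the logarithmic combination.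
-/

namespace Vale.Agent.Lib.P227

open MeasureTheory Set
open scoped ENNReal Pointwise

/-- The point of `R^(n+1)` with first coordinate `t` and remaining coordinates `w`. -/
noncomputable def ecomb {n : ℕ} (t : ℝ) (w : EuclideanSpace ℝ (Fin n)) :
    EuclideanSpace ℝ (Fin (n + 1)) :=
  WithLp.toLp 2 (Fin.cons t (WithLp.ofLp w) : Fin (n + 1) → ℝ)

/-- The last `n` coordinates of a point of `R^(n+1)`. -/
noncomputable def etail {n : ℕ} (x : EuclideanSpace ℝ (Fin (n + 1))) : EuclideanSpace ℝ (Fin n) :=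
  WithLp.toLp 2 (fun i : Fin n => x i.succ)

/-- The section of `S` at height `t`. -/
def sec {n : ℕ} (t : ℝ) (S : Set (EuclideanSpace ℝ (Fin (n + 1)))) :
    Set (EuclideanSpace ℝ (Fin n)) :=
  {w | ecomb t w ∈ S}

theorem ecomb_zero {n : ℕ} (t : ℝ) (w : EuclideanSpace ℝ (Fin n)) : ecomb t w 0 = t := by
  simp [ecomb]

theorem ecomb_succ {n : ℕ} (t : ℝ) (w : EuclideanSpace ℝ (Fin n)) (i : Fin n) :
    ecomb t w i.succ = w i := by
  simp [ecomb]

theorem ecomb_eta {n : ℕ} (x : EuclideanSpace ℝ (Fin (n + 1))) : ecomb (x 0) (etail x) = x := by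
  ext i
  refine Fin.cases ?_ (fun j => ?_) i
  · simp [ecomb]
  · simp [ecomb, etail]

theorem etail_ecomb {n : ℕ} (t : ℝ) (w : EuclideanSpace ℝ (Fin n)) : etail (ecomb t w) = w := by
  ext i
  simp [etail, ecomb]

theorem inner_ecomb {n : ℕ} (t a : ℝ) (w v : EuclideanSpace ℝ (Fin n)) :
    inner ℝ (ecomb t w) (ecomb a v) = t * a + inner ℝ w v := by
  simp [ecomb, PiLp.inner_apply, Fin.sum_univ_succ, mul_comm]

theorem continuous_ecomb_prod {n : ℕ} :
    Continuous (fun p : ℝ × EuclideanSpace ℝ (Fin n) => ecomb p.1 p.2) := by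
  unfold ecomb
  refine (PiLp.continuous_toLp 2 _).comp (continuous_pi fun i => ?_)
  refine Fin.cases ?_ (fun j => ?_) i
  · simp only [Fin.cons_zero]
    exact continuous_fst
  · simp only [Fin.cons_succ]
    exact (continuous_apply j).comp ((PiLp.continuous_ofLp 2 _).comp continuous_snd)

theorem continuous_ecomb {n : ℕ} (t : ℝ) : Continuous (ecomb (n := n) t) :=
  continuous_ecomb_prod.comp (continuous_const.prodMk continuous_id)

theorem continuous_etail {n : ℕ} : Continuous (etail (n := n)) := by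
  unfold etail
  refine (PiLp.continuous_toLp 2 _).comp (continuous_pi fun i => ?_)
  exact (continuous_apply i.succ).comp (PiLp.continuous_ofLp 2 _)

/-! ### Slicing -/

theorem piFinSucc_symm_apply' (d : ℕ) (p : ℝ × (Fin d → ℝ)) :
    (MeasurableEquiv.piFinSuccAbove (fun _ : Fin (d + 1) => ℝ) 0).symm p = Fin.cons p.1 p.2 := by
  funext k
  refine Fin.cases ?_ (fun j => ?_) k
  · simp [MeasurableEquiv.piFinSuccAbove, Fin.insertNthEquiv]
  · simp [MeasurableEquiv.piFinSuccAbove, Fin.insertNthEquiv]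

theorem measurePreserving_ecomb (n : ℕ) :
    MeasurePreserving (fun p : ℝ × EuclideanSpace ℝ (Fin n) => ecomb p.1 p.2)
      (volume.prod volume) volume := by
  set e := MeasurableEquiv.piFinSuccAbove (fun _ : Fin (n + 1) => ℝ) 0 with he
  have mp : MeasurePreserving e.symm volume volume :=
    (volume_preserving_piFinSuccAbove (fun _ : Fin (n + 1) => ℝ) 0).symm e
  have mp1 := PiLp.volume_preserving_toLp (Fin (n + 1))
  have mp2 := PiLp.volume_preserving_ofLp (Fin n)
  have h1 : MeasurePreserving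
      (Prod.map (id : ℝ → ℝ) (WithLp.ofLp : EuclideanSpace ℝ (Fin n) → (Fin n → ℝ)))
      (volume.prod volume) (volume.prod volume) :=
    (MeasurePreserving.id volume).prod mp2
  have h2 := mp1.comp (mp.comp h1)
  have e2 : (fun p : ℝ × EuclideanSpace ℝ (Fin n) => ecomb p.1 p.2)
      = WithLp.toLp 2 ∘ ⇑e.symm ∘ Prod.map (id : ℝ → ℝ)
          (WithLp.ofLp : EuclideanSpace ℝ (Fin n) → (Fin n → ℝ)) := by
    funext p
    show ecomb p.1 p.2 = WithLp.toLp 2 (e.symm (Prod.map id WithLp.ofLp p))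
    rw [he, piFinSucc_symm_apply']
    rfl
  rw [e2]
  exact h2

theorem volume_eq_lintegral_sec {n : ℕ} {S : Set (EuclideanSpace ℝ (Fin (n + 1)))}
    (hS : MeasurableSet S) : volume S = ∫⁻ t : ℝ, volume (sec t S) := by
  have hΦ := measurePreserving_ecomb n
  rw [← hΦ.measure_preimage hS.nullMeasurableSet, Measure.prod_apply (hΦ.measurable hS)]
  rfl

theorem measurable_volume_sec {n : ℕ} {S : Set (EuclideanSpace ℝ (Fin (n + 1)))}
    (hS : MeasurableSet S) : Measurable fun t : ℝ => volume (sec t S) :=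
  measurable_measure_prodMk_left (continuous_ecomb_prod.measurable hS)

theorem lintegral_split_neg (F : ℝ → ℝ≥0∞) (hF : Measurable F) :
    ∫⁻ t, F t = (∫⁻ t in Ioi (0:ℝ), F t) + ∫⁻ t in Ioi (0:ℝ), F (-t) := by
  have h1 : ∫⁻ t in Iic (0:ℝ), F t = ∫⁻ t in Ici (0:ℝ), F (-t) := by
    have h := (Measure.measurePreserving_neg (volume : Measure ℝ)).setLIntegral_comp_preimage
      (measurableSet_Iic (a := (0:ℝ))) hF
    rw [← h]
    congr 1
    ext x
    simp
  have h2 : ∫⁻ t in Ici (0:ℝ), F (-t) = ∫⁻ t in Ioi (0:ℝ), F (-t) :=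
    (setLIntegral_congr (Ioi_ae_eq_Ici : Ioi (0:ℝ) =ᵐ[volume] Ici 0)).symm
  have h3 : ∫⁻ t, F t = (∫⁻ t in Ioi (0:ℝ), F t) + ∫⁻ t in Iic (0:ℝ), F t := by
    rw [← compl_Ioi]
    exact (lintegral_add_compl F measurableSet_Ioi).symm
  rw [h3, h1, h2]

/-! ### Sections of a symmetric convex body -/

theorem isCompact_sec {n : ℕ} {K : Set (EuclideanSpace ℝ (Fin (n + 1)))} (hK : IsCompact K)
    (t : ℝ) : IsCompact (sec t K) := by
  refine IsCompact.of_isClosed_subset (hK.image continuous_etail)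
    (hK.isClosed.preimage (continuous_ecomb t)) ?_
  intro w hw
  exact ⟨ecomb t w, hw, etail_ecomb t w⟩

theorem convex_sec {n : ℕ} {K : Set (EuclideanSpace ℝ (Fin (n + 1)))} (hK : Convex ℝ K)
    (t : ℝ) : Convex ℝ (sec t K) := by
  intro w hw w' hw' a b ha hb hab
  have e : ecomb t (a • w + b • w') = a • ecomb t w + b • ecomb t w' := by
    ext i
    refine Fin.cases ?_ (fun j => ?_) i
    · simp only [ecomb_zero, PiLp.add_apply, PiLp.smul_apply, smul_eq_mul]
      rw [← add_mul, hab, one_mul]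
    · simp only [ecomb_succ, PiLp.add_apply, PiLp.smul_apply, smul_eq_mul]
  show ecomb t (a • w + b • w') ∈ K
  rw [e]
  exact hK hw hw' ha hb hab

theorem neg_ecomb {n : ℕ} (t : ℝ) (w : EuclideanSpace ℝ (Fin n)) :
    -(ecomb t w) = ecomb (-t) (-w) := by
  ext i
  refine Fin.cases ?_ (fun j => ?_) i
  · simp only [ecomb_zero, PiLp.neg_apply]
  · simp only [ecomb_succ, PiLp.neg_apply]

theorem sec_symm {n : ℕ} {K : Set (EuclideanSpace ℝ (Fin (n + 1)))}
    (hKs : ∀ x ∈ K, -x ∈ K) (hKr : ∀ t w, ecomb t w ∈ K → ecomb (-t) w ∈ K) (t : ℝ) :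
    ∀ w ∈ sec t K, -w ∈ sec t K := by
  intro w hw
  have h1 := hKs _ hw
  rw [neg_ecomb] at h1
  have h2 := hKr _ _ h1
  rw [neg_neg] at h2
  exact h2

theorem sec_neg_eq {n : ℕ} {K : Set (EuclideanSpace ℝ (Fin (n + 1)))}
    (hKr : ∀ t w, ecomb t w ∈ K → ecomb (-t) w ∈ K) (t : ℝ) : sec (-t) K = sec t K := by
  ext w
  constructor
  · intro h
    have h2 := hKr _ _ h
    rw [neg_neg] at h2
    exact h2
  · intro h
    exact hKr _ _ h

theorem zero_mem_of_symm {E : Type*} [AddCommGroup E] [Module ℝ E] {A : Set E}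
    (hc : Convex ℝ A) (hs : ∀ x ∈ A, -x ∈ A) (hne : A.Nonempty) : (0 : E) ∈ A := by
  obtain ⟨x, hx⟩ := hne
  have e : (0 : E) = (1 / 2 : ℝ) • x + (1 / 2 : ℝ) • (-x) := by module
  rw [e]
  exact hc hx (hs x hx) (by norm_num) (by norm_num) (by norm_num)

theorem volume_eq_zero_of_interior_empty {n : ℕ} {A : Set (EuclideanSpace ℝ (Fin n))}
    (hc : Convex ℝ A) (hcl : IsClosed A) (hint : ¬ (interior A).Nonempty) : volume A = 0 := by
  have h : frontier A = A := by
    rw [frontier, hcl.closure_eq, Set.not_nonempty_iff_eq_empty.1 hint, Set.sdiff_empty]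
  rw [← h]
  exact hc.addHaar_frontier volume

/-! ### Support functions -/

section Support

variable {E : Type*} [NormedAddCommGroup E] [InnerProductSpace ℝ E]

theorem supportFn_smul (K : Set E) {c : ℝ} (hc : 0 ≤ c) (u : E) :
    supportFn K (c • u) = c * supportFn K u := by
  unfold supportFn
  have e : (fun x : E => inner ℝ x (c • u)) '' K = c • ((fun x : E => inner ℝ x u) '' K) := by
    ext y
    constructor
    · rintro ⟨x, hx, rfl⟩
      exact ⟨inner ℝ x u, ⟨x, hx, rfl⟩, by simp [inner_smul_right]⟩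
    · rintro ⟨z, ⟨x, hx, rfl⟩, rfl⟩
      exact ⟨x, hx, by simp [inner_smul_right]⟩
  rw [e, Real.sSup_smul_of_nonneg hc]
  rfl

theorem supportFn_nonneg {K : Set E} (hK : IsCompact K) (h0K : (0 : E) ∈ K) (u : E) :
    0 ≤ supportFn K u := by
  have h := inner_le_supportFn hK h0K u
  simpa using h

theorem isClosed_wulff (f : E → ℝ) : IsClosed (wulff f) := by
  have e : wulff f = ⋂ u : E, ⋂ _ : ‖u‖ = 1, {x : E | inner ℝ x u ≤ f u} := by
    ext x
    simp [wulff]
  rw [e]
  exact isClosed_iInter fun u => isClosed_iInter fun _ =>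
    isClosed_le (by fun_prop) continuous_const

/-- Membership in a logarithmic combination, tested against an arbitrary vector. -/
theorem inner_le_of_mem_logSum {K L : Set E} {lam : ℝ}
    (hK0 : ∀ u, 0 ≤ supportFn K u) (hL0 : ∀ u, 0 ≤ supportFn L u)
    {w : E} (hw : w ∈ logSum lam K L) (v : E) :
    inner ℝ w v ≤ supportFn K v ^ (1 - lam) * supportFn L v ^ lam := by
  by_cases hv : v = 0
  · subst hv
    rw [inner_zero_right]
    exact mul_nonneg (Real.rpow_nonneg (hK0 0) _) (Real.rpow_nonneg (hL0 0) _)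
  · have hn : 0 < ‖v‖ := norm_pos_iff.2 hv
    have hu : ‖(‖v‖⁻¹ • v)‖ = 1 := by
      rw [norm_smul, norm_inv, norm_norm, inv_mul_cancel₀ hn.ne']
    have h : inner ℝ w (‖v‖⁻¹ • v)
        ≤ supportFn K (‖v‖⁻¹ • v) ^ (1 - lam) * supportFn L (‖v‖⁻¹ • v) ^ lam := hw _ hu
    have e : v = ‖v‖ • (‖v‖⁻¹ • v) := by
      rw [smul_smul, mul_inv_cancel₀ hn.ne', one_smul]
    have hpow : ‖v‖ ^ (1 - lam) * ‖v‖ ^ lam = ‖v‖ := by
      rw [← Real.rpow_add hn]
      simp
    rw [e, inner_smul_right, supportFn_smul K hn.le, supportFn_smul L hn.le,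
      Real.mul_rpow hn.le (hK0 _), Real.mul_rpow hn.le (hL0 _)]
    calc ‖v‖ * inner ℝ w (‖v‖⁻¹ • v)
        ≤ ‖v‖ * (supportFn K (‖v‖⁻¹ • v) ^ (1 - lam) * supportFn L (‖v‖⁻¹ • v) ^ lam) :=
          mul_le_mul_of_nonneg_left h hn.le
      _ = (‖v‖ ^ (1 - lam) * ‖v‖ ^ lam)
            * (supportFn K (‖v‖⁻¹ • v) ^ (1 - lam) * supportFn L (‖v‖⁻¹ • v) ^ lam) := by
          rw [hpow]
      _ = _ := by ring

end Support

/-- Two-term Hoelder inequality with exponents `1 / (1 - lam)` and `1 / lam`. -/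
theorem holder_two {lam : ℝ} (h0 : 0 < lam) (h1 : lam < 1) {x₁ x₂ y₁ y₂ : ℝ}
    (hx₁ : 0 ≤ x₁) (hx₂ : 0 ≤ x₂) (hy₁ : 0 ≤ y₁) (hy₂ : 0 ≤ y₂) :
    x₁ ^ (1 - lam) * y₁ ^ lam + x₂ ^ (1 - lam) * y₂ ^ lam
      ≤ (x₁ + x₂) ^ (1 - lam) * (y₁ + y₂) ^ lam := by
  have hl : 0 < 1 - lam := by linarith
  rcases (add_nonneg hx₁ hx₂).eq_or_lt with hX | hX
  · have e1 : x₁ = 0 := by linarith
    have e2 : x₂ = 0 := by linarith
    rw [e1, e2]
    simp [Real.zero_rpow hl.ne']
  rcases (add_nonneg hy₁ hy₂).eq_or_lt with hY | hY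
  · have e1 : y₁ = 0 := by linarith
    have e2 : y₂ = 0 := by linarith
    rw [e1, e2]
    simp [Real.zero_rpow h0.ne']
  have hXY : 0 < (x₁ + x₂) ^ (1 - lam) * (y₁ + y₂) ^ lam :=
    mul_pos (Real.rpow_pos_of_pos hX _) (Real.rpow_pos_of_pos hY _)
  have key : ∀ x y : ℝ, 0 ≤ x → 0 ≤ y → x ^ (1 - lam) * y ^ lam
      ≤ (x₁ + x₂) ^ (1 - lam) * (y₁ + y₂) ^ lam
        * ((1 - lam) * (x / (x₁ + x₂)) + lam * (y / (y₁ + y₂))) := by
    intro x y hx hy
    have hg := Real.geom_mean_le_arith_mean2_weighted hl.le h0.le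
      (div_nonneg hx hX.le) (div_nonneg hy hY.le) (by ring)
    have e : x ^ (1 - lam) * y ^ lam = (x₁ + x₂) ^ (1 - lam) * (y₁ + y₂) ^ lam
        * ((x / (x₁ + x₂)) ^ (1 - lam) * (y / (y₁ + y₂)) ^ lam) := by
      rw [Real.div_rpow hx hX.le, Real.div_rpow hy hY.le]
      have hXp : (x₁ + x₂) ^ (1 - lam) ≠ 0 := (Real.rpow_pos_of_pos hX _).ne'
      have hYp : (y₁ + y₂) ^ lam ≠ 0 := (Real.rpow_pos_of_pos hY _).ne'
      field_simp
    rw [e]
    exact mul_le_mul_of_nonneg_left hg hXY.le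
  have k1 := key x₁ y₁ hx₁ hy₁
  have k2 := key x₂ y₂ hx₂ hy₂
  have e : (1 - lam) * (x₁ / (x₁ + x₂)) + lam * (y₁ / (y₁ + y₂))
      + ((1 - lam) * (x₂ / (x₁ + x₂)) + lam * (y₂ / (y₁ + y₂))) = 1 := by
    field_simp
    ring
  calc x₁ ^ (1 - lam) * y₁ ^ lam + x₂ ^ (1 - lam) * y₂ ^ lam
      ≤ (x₁ + x₂) ^ (1 - lam) * (y₁ + y₂) ^ lam
          * ((1 - lam) * (x₁ / (x₁ + x₂)) + lam * (y₁ / (y₁ + y₂)))
        + (x₁ + x₂) ^ (1 - lam) * (y₁ + y₂) ^ lam
          * ((1 - lam) * (x₂ / (x₁ + x₂)) + lam * (y₂ / (y₁ + y₂))) := add_le_add k1 k2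
    _ = (x₁ + x₂) ^ (1 - lam) * (y₁ + y₂) ^ lam := by
        rw [← mul_add, e, mul_one]

/-! ### The inclusion -/

theorem supportFn_ge_sec {n : ℕ} {K : Set (EuclideanSpace ℝ (Fin (n + 1)))} (hK : IsCompact K)
    (hKr : ∀ t w, ecomb t w ∈ K → ecomb (-t) w ∈ K) {t : ℝ} (hne : (sec t K).Nonempty)
    (α : ℝ) (v : EuclideanSpace ℝ (Fin n)) :
    t * |α| + supportFn (sec t K) v ≤ supportFn K (ecomb α v) := by
  obtain ⟨w₀, hw₀, hsup⟩ := exists_supportFn_eq (isCompact_sec hK t) hne v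
  rw [hsup]
  have hw₀' : ecomb t w₀ ∈ K := hw₀
  rcases le_total 0 α with hα | hα
  · have h := inner_le_supportFn hK hw₀' (ecomb α v)
    rw [inner_ecomb] at h
    rw [abs_of_nonneg hα]
    exact h
  · have h := inner_le_supportFn hK (hKr _ _ hw₀') (ecomb α v)
    rw [inner_ecomb] at h
    rw [abs_of_nonpos hα]
    linarith

/-- If `w` lies in the logarithmic combination of the sections of `K` at height `t` and of
`L` at height `s`, then the points with first coordinate of absolute value at most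
`t ^ (1 - lam) * s ^ lam` and remaining coordinates `w` lie in the logarithmic
combination of `K` and `L`. -/
theorem ecomb_mem_logSum {n : ℕ} {K L : Set (EuclideanSpace ℝ (Fin (n + 1)))}
    (hK : IsCompact K) (hL : IsCompact L)
    (hKr : ∀ t w, ecomb t w ∈ K → ecomb (-t) w ∈ K)
    (hLr : ∀ t w, ecomb t w ∈ L → ecomb (-t) w ∈ L)
    {lam : ℝ} (h0 : 0 < lam) (h1 : lam < 1) {t s : ℝ} (ht : 0 < t) (hs : 0 < s)
    (hKt0 : (0 : EuclideanSpace ℝ (Fin n)) ∈ sec t K)
    (hLs0 : (0 : EuclideanSpace ℝ (Fin n)) ∈ sec s L)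
    {w : EuclideanSpace ℝ (Fin n)} (hw : w ∈ logSum lam (sec t K) (sec s L))
    {ρ : ℝ} (hρ : |ρ| ≤ t ^ (1 - lam) * s ^ lam) :
    ecomb ρ w ∈ logSum lam K L := by
  intro u _
  show inner ℝ (ecomb ρ w) u ≤ supportFn K u ^ (1 - lam) * supportFn L u ^ lam
  rw [← ecomb_eta u, inner_ecomb]
  generalize u 0 = α
  generalize etail u = v
  have hKc := isCompact_sec hK t
  have hLc := isCompact_sec hL s
  have ha : 0 ≤ supportFn (sec t K) v := supportFn_nonneg hKc hKt0 v
  have hb : 0 ≤ supportFn (sec s L) v := supportFn_nonneg hLc hLs0 v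
  have hta : 0 ≤ t * |α| := mul_nonneg ht.le (abs_nonneg α)
  have hsa : 0 ≤ s * |α| := mul_nonneg hs.le (abs_nonneg α)
  have h1' := inner_le_of_mem_logSum (fun u => supportFn_nonneg hKc hKt0 u)
    (fun u => supportFn_nonneg hLc hLs0 u) hw v
  have h2 := supportFn_ge_sec hK hKr ⟨0, hKt0⟩ α v
  have h3 := supportFn_ge_sec hL hLr ⟨0, hLs0⟩ α v
  have h4 := holder_two h0 h1 hta ha hsa hb
  have h5 : (t * |α|) ^ (1 - lam) * (s * |α|) ^ lam = t ^ (1 - lam) * s ^ lam * |α| := by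
    rw [Real.mul_rpow ht.le (abs_nonneg α), Real.mul_rpow hs.le (abs_nonneg α)]
    have e : |α| ^ (1 - lam) * |α| ^ lam = |α| := by
      rw [← Real.rpow_add_of_nonneg (abs_nonneg α) (by linarith) h0.le]
      simp
    calc t ^ (1 - lam) * |α| ^ (1 - lam) * (s ^ lam * |α| ^ lam)
        = t ^ (1 - lam) * s ^ lam * (|α| ^ (1 - lam) * |α| ^ lam) := by ring
      _ = t ^ (1 - lam) * s ^ lam * |α| := by rw [e]
  have h6 : ρ * α ≤ t ^ (1 - lam) * s ^ lam * |α| := by
    calc ρ * α ≤ |ρ * α| := le_abs_self _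
      _ = |ρ| * |α| := abs_mul _ _
      _ ≤ t ^ (1 - lam) * s ^ lam * |α| := mul_le_mul_of_nonneg_right hρ (abs_nonneg α)
  have h7 : (t * |α| + supportFn (sec t K) v) ^ (1 - lam)
        * (s * |α| + supportFn (sec s L) v) ^ lam
      ≤ supportFn K (ecomb α v) ^ (1 - lam) * supportFn L (ecomb α v) ^ lam :=
    mul_le_mul (Real.rpow_le_rpow (add_nonneg hta ha) h2 (by linarith))
      (Real.rpow_le_rpow (add_nonneg hsa hb) h3 h0.le)
      (Real.rpow_nonneg (add_nonneg hsa hb) _)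
      (Real.rpow_nonneg ((add_nonneg hta ha).trans h2) _)
  linarith

/-- The section inequality: the inequality for the pairs of sections (or the vanishing of the
volume of a section with empty interior) gives the multiplicative Prekopa-Leindler hypothesis
for the section volumes. -/
theorem sec_volume_ineq {n : ℕ} {lam : ℝ} (h0 : 0 < lam) (h1 : lam < 1)
    {K L : Set (EuclideanSpace ℝ (Fin (n + 1)))}
    (hsec : ∀ t s : ℝ, 0 < t → 0 < s →
      (interior (sec t K)).Nonempty → (interior (sec s L)).Nonempty →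
      volume (sec t K) ^ (1 - lam) * volume (sec s L) ^ lam
        ≤ volume (logSum lam (sec t K) (sec s L)))
    (hKc : Convex ℝ K) (hK : IsCompact K) (hKs : ∀ x ∈ K, -x ∈ K)
    (hKr : ∀ t w, ecomb t w ∈ K → ecomb (-t) w ∈ K)
    (hLc : Convex ℝ L) (hL : IsCompact L) (hLs : ∀ x ∈ L, -x ∈ L)
    (hLr : ∀ t w, ecomb t w ∈ L → ecomb (-t) w ∈ L)
    {t s : ℝ} (ht : 0 < t) (hs : 0 < s) {ρ : ℝ} (hρ : |ρ| ≤ t ^ (1 - lam) * s ^ lam) :
    volume (sec t K) ^ (1 - lam) * volume (sec s L) ^ lam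
      ≤ volume (sec ρ (logSum lam K L)) := by
  by_cases hA : (interior (sec t K)).Nonempty
  · by_cases hB : (interior (sec s L)).Nonempty
    · have hA0 := zero_mem_of_symm (convex_sec hKc t) (sec_symm hKs hKr t)
        (hA.mono interior_subset)
      have hB0 := zero_mem_of_symm (convex_sec hLc s) (sec_symm hLs hLr s)
        (hB.mono interior_subset)
      refine (hsec t s ht hs hA hB).trans (measure_mono ?_)
      intro w hw
      exact ecomb_mem_logSum hK hL hKr hLr h0 h1 ht hs hA0 hB0 hw hρ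
    · have hz : volume (sec s L) = 0 :=
        volume_eq_zero_of_interior_empty (convex_sec hLc s) (isCompact_sec hL s).isClosed hB
      rw [hz, ENNReal.zero_rpow_of_pos h0, mul_zero]
      exact zero_le
  · have hz : volume (sec t K) = 0 :=
      volume_eq_zero_of_interior_empty (convex_sec hKc t) (isCompact_sec hK t).isClosed hA
    rw [hz, ENNReal.zero_rpow_of_pos (by linarith), zero_mul]
    exact zero_le

/-! ### Assembly -/

/-- The reduction for `0 < lam < 1`, with the multiplicative one-dimensional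
Prekopa-Leindler inequality passed as the argument `hPL`. -/
theorem logBM_fibre {n : ℕ} {lam : ℝ} (h0 : 0 < lam) (h1 : lam < 1)
    (hPL : ∀ F G H : ℝ → ℝ≥0∞, Measurable F → Measurable G → Measurable H →
      (∀ t s : ℝ, 0 < t → 0 < s → F t ^ (1 - lam) * G s ^ lam ≤ H (t ^ (1 - lam) * s ^ lam)) →
      (∫⁻ t in Ioi (0:ℝ), F t) ^ (1 - lam) * (∫⁻ s in Ioi (0:ℝ), G s) ^ lam
        ≤ ∫⁻ r in Ioi (0:ℝ), H r)
    {K L : Set (EuclideanSpace ℝ (Fin (n + 1)))}
    (hsec : ∀ t s : ℝ, 0 < t → 0 < s →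
      (interior (sec t K)).Nonempty → (interior (sec s L)).Nonempty →
      volume (sec t K) ^ (1 - lam) * volume (sec s L) ^ lam
        ≤ volume (logSum lam (sec t K) (sec s L)))
    (hKc : Convex ℝ K) (hK : IsCompact K) (hKs : ∀ x ∈ K, -x ∈ K)
    (hKr : ∀ t w, ecomb t w ∈ K → ecomb (-t) w ∈ K)
    (hLc : Convex ℝ L) (hL : IsCompact L) (hLs : ∀ x ∈ L, -x ∈ L)
    (hLr : ∀ t w, ecomb t w ∈ L → ecomb (-t) w ∈ L) :
    volume K ^ (1 - lam) * volume L ^ lam ≤ volume (logSum lam K L) := by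
  have hWm : MeasurableSet (logSum lam K L) := (isClosed_wulff _).measurableSet
  have hKm : MeasurableSet K := hK.isClosed.measurableSet
  have hLm : MeasurableSet L := hL.isClosed.measurableSet
  have hF : Measurable fun t : ℝ => volume (sec t K) := measurable_volume_sec hKm
  have hG : Measurable fun t : ℝ => volume (sec t L) := measurable_volume_sec hLm
  have hH : Measurable fun t : ℝ => volume (sec t (logSum lam K L)) := measurable_volume_sec hWm
  have hH' : Measurable fun t : ℝ => volume (sec (-t) (logSum lam K L)) :=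
    hH.comp measurable_neg
  have volK : volume K = 2 * ∫⁻ t in Ioi (0:ℝ), volume (sec t K) := by
    rw [volume_eq_lintegral_sec hKm, lintegral_split_neg _ hF]
    simp only [sec_neg_eq hKr]
    rw [two_mul]
  have volL : volume L = 2 * ∫⁻ t in Ioi (0:ℝ), volume (sec t L) := by
    rw [volume_eq_lintegral_sec hLm, lintegral_split_neg _ hG]
    simp only [sec_neg_eq hLr]
    rw [two_mul]
  have volW : volume (logSum lam K L) = (∫⁻ r in Ioi (0:ℝ), volume (sec r (logSum lam K L)))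
      + ∫⁻ r in Ioi (0:ℝ), volume (sec (-r) (logSum lam K L)) := by
    rw [volume_eq_lintegral_sec hWm, lintegral_split_neg _ hH]
  have hpos : ∀ t s : ℝ, 0 < t → 0 < s → 0 ≤ t ^ (1 - lam) * s ^ lam := fun t s ht hs =>
    mul_nonneg (Real.rpow_nonneg ht.le _) (Real.rpow_nonneg hs.le _)
  have pl1 := hPL _ _ _ hF hG hH (fun t s ht hs =>
    sec_volume_ineq h0 h1 hsec hKc hK hKs hKr hLc hL hLs hLr ht hs
      (ρ := t ^ (1 - lam) * s ^ lam) (by rw [abs_of_nonneg (hpos t s ht hs)]))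
  have pl2 := hPL _ _ _ hF hG hH' (fun t s ht hs =>
    sec_volume_ineq h0 h1 hsec hKc hK hKs hKr hLc hL hLs hLr ht hs
      (ρ := -(t ^ (1 - lam) * s ^ lam)) (by rw [abs_neg, abs_of_nonneg (hpos t s ht hs)]))
  have e2 : (2 : ℝ≥0∞) ^ (1 - lam) * (2 : ℝ≥0∞) ^ lam = 2 := by
    rw [← ENNReal.rpow_add _ _ (by norm_num) (by norm_num)]
    simp
  rw [volK, volL, volW, ENNReal.mul_rpow_of_nonneg _ _ (by linarith : (0:ℝ) ≤ 1 - lam),
    ENNReal.mul_rpow_of_nonneg _ _ h0.le]
  calc (2 : ℝ≥0∞) ^ (1 - lam) * (∫⁻ t in Ioi (0:ℝ), volume (sec t K)) ^ (1 - lam)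
        * ((2 : ℝ≥0∞) ^ lam * (∫⁻ t in Ioi (0:ℝ), volume (sec t L)) ^ lam)
      = ((2 : ℝ≥0∞) ^ (1 - lam) * (2 : ℝ≥0∞) ^ lam)
        * ((∫⁻ t in Ioi (0:ℝ), volume (sec t K)) ^ (1 - lam)
          * (∫⁻ t in Ioi (0:ℝ), volume (sec t L)) ^ lam) := by ring
    _ = (∫⁻ t in Ioi (0:ℝ), volume (sec t K)) ^ (1 - lam)
          * (∫⁻ t in Ioi (0:ℝ), volume (sec t L)) ^ lam
        + (∫⁻ t in Ioi (0:ℝ), volume (sec t K)) ^ (1 - lam)
          * (∫⁻ t in Ioi (0:ℝ), volume (sec t L)) ^ lam := by rw [e2, two_mul]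
    _ ≤ _ := add_le_add pl1 pl2

/-! ### The end points `lam = 0` and `lam = 1` -/

section Ends

variable {E : Type*} [NormedAddCommGroup E] [InnerProductSpace ℝ E]

theorem subset_logSum_zero {K : Set E} (hK : IsCompact K) (L : Set E) : K ⊆ logSum 0 K L := by
  intro x hx u _
  show inner ℝ x u ≤ supportFn K u ^ (1 - (0:ℝ)) * supportFn L u ^ (0:ℝ)
  rw [sub_zero, Real.rpow_one, Real.rpow_zero, mul_one]
  exact inner_le_supportFn hK hx u

theorem subset_logSum_one (K : Set E) {L : Set E} (hL : IsCompact L) : L ⊆ logSum 1 K L := by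
  intro x hx u _
  show inner ℝ x u ≤ supportFn K u ^ (1 - (1:ℝ)) * supportFn L u ^ (1:ℝ)
  rw [sub_self, Real.rpow_one, Real.rpow_zero, one_mul]
  exact inner_le_supportFn hL hx u

end Ends

/-- The coordinate reflection written with `EuclideanSpace.single` is the reflection of the
first coordinate. -/
theorem reflect_ecomb {n : ℕ} (t : ℝ) (w : EuclideanSpace ℝ (Fin n)) :
    ecomb t w - (2 * (ecomb t w) 0) • EuclideanSpace.single (0 : Fin (n + 1)) (1 : ℝ)
      = ecomb (-t) w := by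
  ext i
  refine Fin.cases ?_ (fun j => ?_) i
  · simp only [PiLp.sub_apply, PiLp.smul_apply, ecomb_zero, smul_eq_mul]
    simp
    ring
  · simp only [PiLp.sub_apply, PiLp.smul_apply, ecomb_zero, ecomb_succ, smul_eq_mul]
    simp [Fin.succ_ne_zero]

/-- Reflecting a later coordinate of `ecomb t w` reflects the corresponding coordinate of `w`. -/
theorem ecomb_reflect_succ {n : ℕ} (t : ℝ) (w : EuclideanSpace ℝ (Fin n)) (j : Fin n) :
    ecomb t w - (2 * (ecomb t w) j.succ) • EuclideanSpace.single (j.succ : Fin (n + 1)) (1 : ℝ)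
      = ecomb t (w - (2 * w j) • EuclideanSpace.single j (1 : ℝ)) := by
  ext i
  refine Fin.cases ?_ (fun l => ?_) i
  · simp only [PiLp.sub_apply, PiLp.smul_apply, ecomb_zero, ecomb_succ, smul_eq_mul]
    simp [(Fin.succ_ne_zero j).symm]
  · simp only [PiLp.sub_apply, PiLp.smul_apply, ecomb_succ, smul_eq_mul]
    simp [Fin.succ_inj]

/-- One step of the reduction: from the class of pairs in `R^m` that are invariant under the
first `k` coordinate reflections to the class of pairs in `R^(m+1)` that are invariant under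
the first `k + 1` coordinate reflections. The multiplicative one-dimensional
Prekopa-Leindler inequality is passed as the argument `hPL`. -/
theorem logBM_succ {m : ℕ} {lam : ℝ} (h0 : 0 ≤ lam) (h1 : lam ≤ 1)
    (hPL : 0 < lam → lam < 1 →
      ∀ F G H : ℝ → ℝ≥0∞, Measurable F → Measurable G → Measurable H →
      (∀ t s : ℝ, 0 < t → 0 < s → F t ^ (1 - lam) * G s ^ lam ≤ H (t ^ (1 - lam) * s ^ lam)) →
      (∫⁻ t in Ioi (0:ℝ), F t) ^ (1 - lam) * (∫⁻ s in Ioi (0:ℝ), G s) ^ lam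
        ≤ ∫⁻ r in Ioi (0:ℝ), H r)
    (k : ℕ)
    (ih : ∀ A B : Set (EuclideanSpace ℝ (Fin m)),
      Convex ℝ A → IsCompact A → (interior A).Nonempty → (∀ x ∈ A, -x ∈ A) →
      (∀ i : Fin m, (i : ℕ) < k →
        ∀ x ∈ A, x - (2 * x i) • EuclideanSpace.single i (1 : ℝ) ∈ A) →
      Convex ℝ B → IsCompact B → (interior B).Nonempty → (∀ x ∈ B, -x ∈ B) →
      (∀ i : Fin m, (i : ℕ) < k →
        ∀ x ∈ B, x - (2 * x i) • EuclideanSpace.single i (1 : ℝ) ∈ B) →
      volume A ^ (1 - lam) * volume B ^ lam ≤ volume (logSum lam A B))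
    (K L : Set (EuclideanSpace ℝ (Fin (m + 1))))
    (hKc : Convex ℝ K) (hK : IsCompact K) (hKs : ∀ x ∈ K, -x ∈ K)
    (hKr : ∀ i : Fin (m + 1), (i : ℕ) < k + 1 →
      ∀ x ∈ K, x - (2 * x i) • EuclideanSpace.single i (1 : ℝ) ∈ K)
    (hLc : Convex ℝ L) (hL : IsCompact L) (hLs : ∀ x ∈ L, -x ∈ L)
    (hLr : ∀ i : Fin (m + 1), (i : ℕ) < k + 1 →
      ∀ x ∈ L, x - (2 * x i) • EuclideanSpace.single i (1 : ℝ) ∈ L) :
    volume K ^ (1 - lam) * volume L ^ lam ≤ volume (logSum lam K L) := by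
  rcases h0.eq_or_lt with h0' | h0'
  · subst h0'
    rw [sub_zero, ENNReal.rpow_one, ENNReal.rpow_zero, mul_one]
    exact measure_mono (subset_logSum_zero hK L)
  rcases h1.eq_or_lt with h1' | h1'
  · subst h1'
    rw [sub_self, ENNReal.rpow_one, ENNReal.rpow_zero, one_mul]
    exact measure_mono (subset_logSum_one K hL)
  have hKr' : ∀ t w, ecomb t w ∈ K → ecomb (-t) w ∈ K := by
    intro t w h
    have h2 := hKr 0 (by simp) _ h
    rw [reflect_ecomb] at h2
    exact h2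
  have hLr' : ∀ t w, ecomb t w ∈ L → ecomb (-t) w ∈ L := by
    intro t w h
    have h2 := hLr 0 (by simp) _ h
    rw [reflect_ecomb] at h2
    exact h2
  have hKsec : ∀ t : ℝ, ∀ j : Fin m, (j : ℕ) < k →
      ∀ w ∈ sec t K, w - (2 * w j) • EuclideanSpace.single j (1 : ℝ) ∈ sec t K := by
    intro t j hj w hw
    have h2 := hKr j.succ (by simp only [Fin.val_succ]; omega) _ hw
    rw [ecomb_reflect_succ] at h2
    exact h2
  have hLsec : ∀ t : ℝ, ∀ j : Fin m, (j : ℕ) < k →
      ∀ w ∈ sec t L, w - (2 * w j) • EuclideanSpace.single j (1 : ℝ) ∈ sec t L := by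
    intro t j hj w hw
    have h2 := hLr j.succ (by simp only [Fin.val_succ]; omega) _ hw
    rw [ecomb_reflect_succ] at h2
    exact h2
  refine logBM_fibre h0' h1' (hPL h0' h1') ?_ hKc hK hKs hKr' hLc hL hLs hLr'
  intro t s _ _ hA hB
  exact ih _ _ (convex_sec hKc t) (isCompact_sec hK t) hA (sec_symm hKs hKr' t) (hKsec t)
    (convex_sec hLc s) (isCompact_sec hL s) hB (sec_symm hLs hLr' s) (hLsec s)

/-- The iterated reduction: if the logarithmic Brunn-Minkowski inequality with parameter `lam`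
holds for all origin-symmetric convex bodies in `R^n`, then it holds for all pairs of
origin-symmetric convex bodies in `R^(n+k)` that are both invariant under the reflections of
the first `k` coordinates. The multiplicative one-dimensional Prekopa-Leindler inequality is
passed as the argument `hPL`. -/
theorem logBM_iter {n : ℕ} {lam : ℝ} (h0 : 0 ≤ lam) (h1 : lam ≤ 1)
    (hPL : 0 < lam → lam < 1 →
      ∀ F G H : ℝ → ℝ≥0∞, Measurable F → Measurable G → Measurable H →
      (∀ t s : ℝ, 0 < t → 0 < s → F t ^ (1 - lam) * G s ^ lam ≤ H (t ^ (1 - lam) * s ^ lam)) →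
      (∫⁻ t in Ioi (0:ℝ), F t) ^ (1 - lam) * (∫⁻ s in Ioi (0:ℝ), G s) ^ lam
        ≤ ∫⁻ r in Ioi (0:ℝ), H r)
    (hdim : ∀ A B : Set (EuclideanSpace ℝ (Fin n)),
      Convex ℝ A → IsCompact A → (interior A).Nonempty → (∀ x ∈ A, -x ∈ A) →
      Convex ℝ B → IsCompact B → (interior B).Nonempty → (∀ x ∈ B, -x ∈ B) →
      volume A ^ (1 - lam) * volume B ^ lam ≤ volume (logSum lam A B)) :
    ∀ (k : ℕ) (K L : Set (EuclideanSpace ℝ (Fin (n + k)))),
      Convex ℝ K → IsCompact K → (interior K).Nonempty → (∀ x ∈ K, -x ∈ K) →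
      (∀ i : Fin (n + k), (i : ℕ) < k →
        ∀ x ∈ K, x - (2 * x i) • EuclideanSpace.single i (1 : ℝ) ∈ K) →
      Convex ℝ L → IsCompact L → (interior L).Nonempty → (∀ x ∈ L, -x ∈ L) →
      (∀ i : Fin (n + k), (i : ℕ) < k →
        ∀ x ∈ L, x - (2 * x i) • EuclideanSpace.single i (1 : ℝ) ∈ L) →
      volume K ^ (1 - lam) * volume L ^ lam ≤ volume (logSum lam K L) := by
  intro k
  induction k with
  | zero =>
    intro K L hKc hK hKi hKs _ hLc hL hLi hLs _
    exact hdim K L hKc hK hKi hKs hLc hL hLi hLs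
  | succ k ih =>
    intro K L hKc hK _ hKs hKr hLc hL _ hLs hLr
    exact logBM_succ (m := n + k) h0 h1 hPL k ih K L hKc hK hKs hKr hLc hL hLs hLr

end Vale.Agent.Lib.P227
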